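import Vale.Agent.P022.H30.Near
import Vale.Agent.P022.H790.A1
import Vale.Agent.P022.H783.QE

/-!
# P022-L3, row [STAB]: `T_ℓ` modulo two keeps the span of the odd powers of `Δ`
-/

open UpperHalfPlane ModularForm ModularFormClass MatrixGroups EisensteinSeries CongruenceSubgroup
open scoped ModularForm
open Vale.Agent.P022.H790.A (toC red DZ E4Z E6Z qExp_disc qExp_E4 qExp_E6 red_DZ red_E4Z red_E6Z)

noncomputable section

namespace Vale.Agent.P022.H583.Stab

theorem toC_inj : Function.Injective toC :=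
  PowerSeries.map_injective _ Int.cast_injective

theorem coeff_toC (n : ℕ) (Z : PowerSeries ℤ) :
    PowerSeries.coeff n (toC Z) = ((PowerSeries.coeff n Z : ℤ) : ℂ) := by
  rw [toC, PowerSeries.coeff_map]
  rfl

theorem coeff_red (n : ℕ) (Z : PowerSeries ℤ) :
    PowerSeries.coeff n (red Z) = ((PowerSeries.coeff n Z : ℤ) : ZMod 2) := by
  rw [red, PowerSeries.coeff_map]
  rfl

/-- the integral expansion of `Δ` is `q` times a unit -/
theorem DZ_eq : ∃ u v : PowerSeries ℤ, DZ = PowerSeries.X * u ∧ u * v = 1 := by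
  have h0 : PowerSeries.coeff 0 DZ = 0 := by
    have h := congrArg (PowerSeries.coeff 0) qExp_disc
    rw [coeff_toC, CuspFormClass.qExpansion_coeff_zero CuspForm.discriminant one_pos
      one_mem_strictPeriods_SL] at h
    exact_mod_cast h.symm
  have h1 : PowerSeries.coeff 1 DZ = 1 := by
    have h := congrArg (PowerSeries.coeff 1) qExp_disc
    rw [coeff_toC] at h
    have h2 := discriminant_qExpansion_coeff_one
    have h3 : (qExpansion 1 (CuspForm.discriminant : CuspForm 𝒮ℒ 12)).coeff 1 = 1 := by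
      rw [CuspForm.coe_discriminant]
      exact h2
    rw [h3] at h
    exact_mod_cast h.symm
  have hX : (PowerSeries.X : PowerSeries ℤ) ∣ DZ := by
    rw [PowerSeries.X_dvd_iff, ← PowerSeries.coeff_zero_eq_constantCoeff_apply]
    exact h0
  obtain ⟨u, hu⟩ := hX
  have hc : PowerSeries.constantCoeff u = 1 := by
    rw [hu, show (1 : ℕ) = 0 + 1 by norm_num, PowerSeries.coeff_succ_X_mul,
      PowerSeries.coeff_zero_eq_constantCoeff_apply] at h1
    exact h1
  have hun : IsUnit u := by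
    rw [PowerSeries.isUnit_iff_constantCoeff, hc]
    exact isUnit_one
  obtain ⟨w, hw⟩ := hun
  exact ⟨u, ↑w⁻¹, hu, by rw [← hw]; exact w.mul_inv⟩

theorem red_zero_mem : red 0 ∈ H30.ev.range := by
  rw [map_zero]
  exact zero_mem _

theorem eq_zero_mem {k : ℤ} {F : ModularForm 𝒮ℒ k} (hF : (F : ℍ → ℂ) = 0) {Z : PowerSeries ℤ}
    (h : qExpansion 1 F = toC Z) : red Z ∈ H30.ev.range := by
  rw [hF, qExpansion_zero] at h
  have h1 : Z = 0 := toC_inj (by rw [← h, map_zero])
  rw [h1]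
  exact red_zero_mem

/-- **integral forms of level one reduce to polynomials in `D`** -/
theorem red_mem (n : ℕ) : ∀ (k : ℤ), k < 12 * n → ∀ (F : ModularForm 𝒮ℒ k) (Z : PowerSeries ℤ),
    qExpansion 1 F = toC Z → red Z ∈ H30.ev.range := by
  induction n with
  | zero =>
    intro k hk F Z h
    exact eq_zero_mem (ModularFormClass.levelOne_neg_weight_eq_zero (by simpa using hk) F) h
  | succ n ih =>
    intro k hk F Z h
    by_cases hneg : k < 0
    · exact eq_zero_mem (ModularFormClass.levelOne_neg_weight_eq_zero hneg F) h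
    by_cases hodd : Odd k
    · refine eq_zero_mem (F := F) ?_ h
      rw [ModularForm.levelOne_odd_weight_eq_zero hodd F]
      rfl
    by_cases h2 : k = 2
    · subst h2
      refine eq_zero_mem (F := F) ?_ h
      rw [rank_zero_iff_forall_zero.1 levelOne_weight_two_rank_zero F]
      rfl
    obtain ⟨a, b, rfl⟩ : ∃ a b : ℕ, k = (a : ℤ) * 4 + (b : ℤ) * 6 := by
      rw [Int.not_odd_iff_even] at hodd
      obtain ⟨j, hj⟩ := hodd
      obtain ⟨m, rfl⟩ : ∃ m : ℕ, j = m := ⟨j.toNat, by omega⟩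
      rcases Nat.even_or_odd m with ⟨c, hc⟩ | ⟨c, hc⟩
      · exact ⟨c, 0, by omega⟩
      · exact ⟨c - 1, 1, by omega⟩
    set E : ModularForm 𝒮ℒ ((a : ℤ) * 4 + (b : ℤ) * 6) := (E₄.pow a).mul (E₆.pow b) with hEdef
    have hE : qExpansion 1 E = toC (E4Z ^ a * E6Z ^ b) := by
      rw [hEdef, ModularForm.qExpansion_mul one_pos one_mem_strictPeriods_SL,
        ModularForm.qExpansion_pow one_pos one_mem_strictPeriods_SL,
        ModularForm.qExpansion_pow one_pos one_mem_strictPeriods_SL, qExp_E4, qExp_E6, map_mul,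
        map_pow, map_pow]
    set c : ℤ := PowerSeries.coeff 0 Z with hc
    set W : PowerSeries ℤ := Z - PowerSeries.C c * (E4Z ^ a * E6Z ^ b) with hW
    have hF' : qExpansion 1 (F - (c : ℂ) • E : ModularForm 𝒮ℒ ((a : ℤ) * 4 + (b : ℤ) * 6)) =
        toC W := by
      rw [FunLike.coe_sub, ModularForm.qExpansion_sub one_pos one_mem_strictPeriods_SL,
        FunLike.coe_smul, ModularForm.qExpansion_smul one_pos one_mem_strictPeriods_SL, h, hE, hW]
      ext m
      rw [map_sub, PowerSeries.coeff_smul, coeff_toC, coeff_toC, coeff_toC, map_sub,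
        PowerSeries.coeff_C_mul, smul_eq_mul]
      push_cast
      ring
    have hE0 : PowerSeries.coeff 0 (E4Z ^ a * E6Z ^ b) = 1 := by
      have e4 : PowerSeries.constantCoeff E4Z = 1 := by
        have h5 := congrArg (PowerSeries.coeff 0) qExp_E4
        rw [coeff_toC, E_qExpansion_coeff_zero _ ⟨2, rfl⟩] at h5
        rw [← PowerSeries.coeff_zero_eq_constantCoeff_apply]
        exact_mod_cast h5.symm
      have e6 : PowerSeries.constantCoeff E6Z = 1 := by
        have h5 := congrArg (PowerSeries.coeff 0) qExp_E6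
        rw [coeff_toC, E_qExpansion_coeff_zero _ ⟨3, rfl⟩] at h5
        rw [← PowerSeries.coeff_zero_eq_constantCoeff_apply]
        exact_mod_cast h5.symm
      rw [PowerSeries.coeff_zero_eq_constantCoeff_apply, map_mul, map_pow, map_pow, e4, e6]
      simp
    have hW0 : PowerSeries.coeff 0 W = 0 := by
      rw [hW, map_sub, PowerSeries.coeff_C_mul, hE0, mul_one, hc, sub_self]
    have hq0 : (qExpansion 1 (F - (c : ℂ) • E :
        ModularForm 𝒮ℒ ((a : ℤ) * 4 + (b : ℤ) * 6))).coeff 0 = 0 := by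
      rw [hF', coeff_toC, hW0, Int.cast_zero]
    have hG := qExpansion_eq_qExpansion_discriminant_mul _ hq0
    set G := CuspForm.discriminantEquiv (toCuspForm _ hq0) with hGdef
    obtain ⟨u, v, hu, huv⟩ := DZ_eq
    obtain ⟨W1, hW1⟩ : (PowerSeries.X : PowerSeries ℤ) ∣ W := by
      rw [PowerSeries.X_dvd_iff, ← PowerSeries.coeff_zero_eq_constantCoeff_apply]
      exact hW0
    have hW2 : W = DZ * (v * W1) := by
      rw [hu, hW1]
      linear_combination (-PowerSeries.X * W1) * huv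
    have hdisc : qExpansion 1 discriminant = toC DZ := by
      rw [← CuspForm.coe_discriminant]
      exact qExp_disc
    have hne : toC DZ ≠ 0 := by
      rw [← hdisc]
      intro h0
      have := discriminant_qExpansion_order
      rw [h0, PowerSeries.order_zero] at this
      exact absurd this (by simp)
    have hG2 : qExpansion 1 G = toC (v * W1) := by
      rw [hF', hdisc, hW2, map_mul] at hG
      exact (mul_left_cancel₀ hne hG).symm
    have h6 := ih _ (by push_cast at hk; omega) G (v * W1) hG2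
    have h7 : Z = PowerSeries.C c * (E4Z ^ a * E6Z ^ b) + DZ * (v * W1) := by
      rw [← hW2, hW]
      ring
    rw [h7, map_add, map_mul, map_mul, map_mul, map_pow, map_pow, red_E4Z, red_E6Z, red_DZ,
      one_pow, one_pow, mul_one, mul_one]
    refine Subalgebra.add_mem _ ?_ (Subalgebra.mul_mem _ ?_ h6)
    · rw [red, PowerSeries.map_C]
      exact Subalgebra.algebraMap_mem _ ((Int.castRingHom (ZMod 2)) c)
    · exact ⟨Polynomial.X, by
        change Polynomial.aeval H30.D Polynomial.X = _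
        rw [Polynomial.aeval_X]
        rfl⟩

/-! ### `T_ℓ` in level one -/

/-- a form of level one as a form for `Γ₁(1)` -/
def res1 {k : ℕ} (f : ModularForm 𝒮ℒ (k : ℤ)) : MF 1 k where
  toFun := f
  slash_action_eq' γ hγ := f.slash_action_eq' γ (by
    obtain ⟨g, _, rfl⟩ := hγ
    exact ⟨g, rfl⟩)
  holo' := f.holo'
  bdd_at_cusps' hc := f.bdd_at_cusps' (hc.mono (by
    rintro _ ⟨g, _, rfl⟩
    exact ⟨g, rfl⟩))

theorem le_Gam : (𝒮ℒ : Subgroup (GL (Fin 2) ℝ)) ≤ Gam 1 := by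
  rintro _ ⟨g, rfl⟩
  refine ⟨g, ?_, rfl⟩
  change g ∈ Gamma1 1
  rw [Gamma1_mem]
  exact ⟨Subsingleton.elim _ _, Subsingleton.elim _ _, Subsingleton.elim _ _⟩

/-- a form for `Γ₁(1)` as a form of level one -/
def ext1 {k : ℕ} (f : MF 1 k) : ModularForm 𝒮ℒ (k : ℤ) where
  toFun := f
  slash_action_eq' γ hγ := f.slash_action_eq' γ (le_Gam hγ)
  holo' := f.holo'
  bdd_at_cusps' hc := f.bdd_at_cusps' (hc.mono le_Gam)

/-- `T_ℓ` on integral expansions -/
def hZ (ℓ k : ℕ) (Z : PowerSeries ℤ) : PowerSeries ℤ :=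
  PowerSeries.mk fun m => PowerSeries.coeff (ℓ * m) Z +
    if ℓ ∣ m then (ℓ : ℤ) ^ (k - 1) * PowerSeries.coeff (m / ℓ) Z else 0

theorem red_hZ {ℓ : ℕ} (hℓ : Odd ℓ) (k : ℕ) (Z : PowerSeries ℤ) :
    red (hZ ℓ k Z) = H30.hec ℓ (red Z) := by
  have h1 : ((ℓ : ℕ) : ZMod 2) = 1 := (ZMod.natCast_eq_one_iff_odd).2 hℓ
  ext m
  rw [H30.coeff_hec, coeff_red, coeff_red, coeff_red, hZ, PowerSeries.coeff_mk]
  push_cast
  split_ifs with h
  · rw [h1, one_pow, one_mul]
  · rfl

theorem exists_T {k : ℕ} (hk : 1 ≤ k) (ℓ : PA 1) (F : ModularForm 𝒮ℒ (k : ℤ))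
    {Z : PowerSeries ℤ} (h : qExpansion 1 F = toC Z) :
    ∃ F' : ModularForm 𝒮ℒ (k : ℤ), qExpansion 1 F' = toC (hZ ℓ.1 k Z) := by
  refine ⟨ext1 (H783.Tl k ℓ (res1 F)), ?_⟩
  have h1 : ∀ τ : ℍ, HasSum (fun m => (((PowerSeries.coeff m Z : ℤ)) : ℂ) * H783.qq τ ^ m)
      (res1 F τ) := by
    intro τ
    have h2 := H783.hasSum_form (res1 F) τ
    have h3 : qExpansion 1 (res1 F : ℍ → ℂ) = toC Z := h
    rw [h3] at h2
    simpa only [coeff_toC] using h2
  have h4 : (H783.dia k ℓ (res1 F) : ℍ → ℂ) = (res1 F : ℍ → ℂ) := by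
    rw [H783.dia_coe, dFun]
    exact F.slash_action_eq' _ ⟨_, rfl⟩
  have h5 : ∀ τ : ℍ, HasSum (fun m => (((PowerSeries.coeff m Z : ℤ)) : ℂ) * H783.qq τ ^ m)
      (H783.dia k ℓ (res1 F) τ) := by
    intro τ
    rw [h4]
    exact h1 τ
  ext m
  rw [coeff_toC]
  refine (ModularFormClass.qExpansion_coeff_unique (f := ext1 (H783.Tl k ℓ (res1 F)))
    (c := fun m => (((PowerSeries.coeff m (hZ ℓ.1 k Z) : ℤ)) : ℂ)) one_pos
    one_mem_strictPeriods_SL (fun τ => ?_) m).symm
  have h6 := H783.hasSum_Tl k ℓ h1 h5 τ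
  change HasSum _ (H783.Tl k ℓ (res1 F) τ)
  have e : (ℓ.1 : ℂ) ^ ((k : ℤ) - 1) = (ℓ.1 : ℂ) ^ (k - 1) := by
    obtain ⟨j, rfl⟩ : ∃ j, k = j + 1 := ⟨k - 1, by omega⟩
    rw [Nat.add_sub_cancel, ← zpow_natCast]
    congr 1
    push_cast
    ring
  convert h6 using 2 with m
  rw [smul_eq_mul]
  congr 1
  rw [hZ, PowerSeries.coeff_mk, e]
  push_cast
  split_ifs <;> simp

/-- `T_ℓ D^n` is a polynomial in `D` -/
theorem hec_pow_mem {ℓ : ℕ} (hℓ : ℓ.Prime) (h2 : ℓ ≠ 2) {n : ℕ} (hn : 0 < n) :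
    H30.hec ℓ (H30.D ^ n) ∈ H30.ev.range := by
  have hodd : Odd ℓ := hℓ.odd_of_ne_two h2
  obtain ⟨F, Z, hF, hZ'⟩ := H790.A.exists_form n 0 0
  have e : (n : ℤ) * 12 + (((0 : ℕ) : ℤ) * 4 + ((0 : ℕ) : ℤ) * 6) = ((n * 12 : ℕ) : ℤ) := by
    push_cast
    ring
  revert F
  rw [e]
  intro F hF
  let p : PA 1 := ⟨ℓ, hℓ, fun h => h2 ((Nat.prime_dvd_prime_iff_eq hℓ Nat.prime_two).1 (by
    simpa using h))⟩
  obtain ⟨F', hF'⟩ := exists_T (by omega) p F hF
  have h3 := red_mem (n + 1) _ (by push_cast; omega) F' _ hF'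
  rw [red_hZ hodd, hZ'] at h3
  exact h3

/-! ### The odd part -/

open Polynomial in
theorem coeff_ev_odd {f : (ZMod 2)[X]} (hf : ∀ k ∈ f.support, k % 2 = 0) {n : ℕ}
    (hn : n % 2 = 1) : PowerSeries.coeff n (H30.ev f) = 0 := by
  unfold H30.ev
  rw [aeval_eq_sum_range, map_sum]
  refine Finset.sum_eq_zero fun k _ => ?_
  by_cases hk : f.coeff k = 0
  · rw [hk, zero_smul, map_zero]
  · have h1 := hf k (mem_support_iff.2 hk)
    rw [PowerSeries.coeff_smul]
    by_contra hc
    have h2 := H30.coeff_D_pow k n (fun h => hc (by rw [h, smul_zero]))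
    omega

open Polynomial in
theorem isOdd_of_coeff {f : (ZMod 2)[X]}
    (hf : ∀ n, n % 2 = 0 → PowerSeries.coeff n (H30.ev f) = 0) : H30.IsOddP f := by
  classical
  set fo : (ZMod 2)[X] := ∑ k ∈ f.support with k % 2 = 1, monomial k (f.coeff k) with hfo
  have hco : ∀ m, fo.coeff m = if m % 2 = 1 then f.coeff m else 0 := by
    intro m
    rw [hfo, finsetSum_coeff]
    simp only [coeff_monomial]
    rw [Finset.sum_ite_eq']
    by_cases hm : m % 2 = 1
    · rw [if_pos hm]
      split_ifs with h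
      · rfl
      · by_contra hc
        exact h (Finset.mem_filter.2 ⟨mem_support_iff.2 (fun h0 => hc h0.symm), hm⟩)
    · rw [if_neg hm, if_neg]
      intro h
      exact hm (Finset.mem_filter.1 h).2
  have ho : H30.IsOddP fo := by
    intro m hm
    rw [mem_support_iff, hco] at hm
    by_contra hc
    rw [if_neg hc] at hm
    exact hm rfl
  have he : ∀ k ∈ (f - fo).support, k % 2 = 0 := by
    intro k hk
    rw [mem_support_iff, coeff_sub, hco] at hk
    by_contra hc
    rw [if_pos (by omega), sub_self] at hk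
    exact hk rfl
  have h0 : H30.ev (f - fo) = 0 := by
    ext n
    rcases Nat.mod_two_eq_zero_or_one n with hn | hn
    · rw [map_sub, map_sub, hf n hn, H30.coeff_ev_even ho hn, sub_zero, map_zero]
    · rw [coeff_ev_odd he hn, map_zero]
  have h1 : f - fo = 0 := H30.ev_injective (by rw [h0, map_zero])
  rw [sub_eq_zero.1 h1]
  exact ho

/-- **[STAB]** -/
theorem stab (ℓ : ℕ) (hℓ : ℓ.Prime) (h2 : ℓ ≠ 2) (F : PowerSeries (ZMod 2))
    (hF : F ∈ H30.Modd) : H30.hec ℓ F ∈ H30.Modd := by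
  have key : H30.Modd ≤ H30.Modd.comap (H30.hecL ℓ) := by
    rw [H30.Modd, Submodule.span_le]
    rintro _ ⟨n, hn, rfl⟩
    change H30.hecL ℓ (H30.D ^ n) ∈ H30.Modd
    rw [H30.hecL_apply]
    obtain ⟨f, hf⟩ := hec_pow_mem hℓ h2 (n := n) (by omega)
    change H30.ev f = _ at hf
    rw [← hf]
    refine H30.ev_mem_Modd (isOdd_of_coeff fun m hm => ?_)
    rw [hf, H30.coeff_hec]
    have h3 : ∀ j, j % 2 = 0 → PowerSeries.coeff j (H30.D ^ n) = 0 := by
      intro j hj
      by_contra hc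
      have := H30.coeff_D_pow n j hc
      omega
    rw [h3 (ℓ * m) (by rw [Nat.mul_mod, hm, mul_zero, Nat.zero_mod]), zero_add]
    split_ifs with h
    · obtain ⟨j, rfl⟩ := h
      rw [Nat.mul_div_cancel_left _ hℓ.pos]
      refine h3 j ?_
      have h4 : ℓ % 2 = 1 := Nat.odd_iff.1 (hℓ.odd_of_ne_two h2)
      rw [Nat.mul_mod, h4, one_mul, Nat.mod_mod] at hm
      exact hm
    · rfl
  exact key hF

end Vale.Agent.P022.H583.Stab
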