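import Vale.Agent.P022.H583.L5

/-! The two modular equations in the letters of chapter A (helper790). -/

namespace Vale.Agent.P022.H583

open scoped Classical

/-- `D = Σ_{a > 0 odd} q^(a²)`. -/
noncomputable def D : PowerSeries (ZMod 2) :=
  PowerSeries.mk fun n => if ∃ a, Odd a ∧ n = a ^ 2 then 1 else 0

/-- `dil k f = f(q^k)`. -/
noncomputable def dil (k : ℕ) (f : PowerSeries (ZMod 2)) : PowerSeries (ZMod 2) :=
  PowerSeries.mk fun n => if k ∣ n then PowerSeries.coeff (n / k) f else 0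

theorem D_eq : D = th 1 := by
  ext n
  rw [D, PowerSeries.coeff_mk, coeff_th]
  simp only [one_mul]

theorem dil_eq (k : ℕ) (hk : k ≠ 0) (f : PowerSeries (ZMod 2)) :
    dil k f = PowerSeries.expand k hk f := by
  ext n
  rw [dil, PowerSeries.coeff_mk, PowerSeries.coeff_expand]

theorem dil_D (k : ℕ) (hk : k ≠ 0) : dil k D = th k := by
  rw [dil_eq k hk, D_eq, ← th_expand, mul_one]

/-- **level 3**. -/
theorem L3 : (D + dil 3 D) ^ 4 = D * dil 3 D := by
  rw [dil_D 3 (by norm_num), D_eq]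
  exact level3 1 one_pos

/-- **level 5**. -/
theorem L5 : (D + dil 5 D) ^ 6 = D * dil 5 D := by
  rw [dil_D 5 (by norm_num), D_eq]
  exact level5 1 one_pos

/-- any series with the coefficients of `D` (any decidability instance) is `D`. -/
theorem eq_D (F : PowerSeries (ZMod 2)) (h1 : ∀ a : ℕ, Odd a → PowerSeries.coeff (a ^ 2) F = 1)
    (h0 : ∀ n : ℕ, (¬ ∃ a, Odd a ∧ n = a ^ 2) → PowerSeries.coeff n F = 0) : F = D := by
  ext n
  rw [D, PowerSeries.coeff_mk]
  split_ifs with h
  · obtain ⟨a, ha, rfl⟩ := h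
    exact h1 a ha
  · exact h0 n h

/-- the cube law: `e = D + D₉ = Σ_{(n,6)=1} q^(n²)`, `e³ = D₃`. -/
theorem cube : (D + dil 9 D) ^ 3 = dil 3 D := by
  rw [dil_D 9 (by norm_num), dil_D 3 (by norm_num), D_eq]
  have h := e6_cube 1 one_pos
  rw [e6_eq 1 one_pos] at h
  exact h

end Vale.Agent.P022.H583
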