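import Mathlib

/-! Chapter F of P022-L3: the elements `t(g) = g + d(g) g⁻¹` lie in the Hecke algebra for
every `g`, as soon as they do so for Frobenius elements and the image is a 2-group. -/

namespace Vale.Agent.P022.H583

variable {A G : Type*} [Ring A] [Group G]

/-- `t(g) = ρ(g) + d(g) ρ(g)⁻¹`. -/
def tt (ρ d : G →* A) (g : G) : A := ρ g + d g * ρ g⁻¹

variable {ρ d : G →* A} {S : Subring A}

/-- the frame: the subring `S` (Hecke algebra) is commutative, commutes with `ρ`, contains `d`. -/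
structure Fr (ρ d : G →* A) (S : Subring A) : Prop where
  cm : ∀ s ∈ S, ∀ g, s * ρ g = ρ g * s
  ss : ∀ s ∈ S, ∀ s' ∈ S, s * s' = s' * s
  dS : ∀ g, d g ∈ S

theorem rho_inv_mul (ρ : G →* A) (g : G) : ρ g⁻¹ * ρ g = 1 := by
  rw [← map_mul, inv_mul_cancel, map_one]

theorem rho_mul_inv (ρ : G →* A) (g : G) : ρ g * ρ g⁻¹ = 1 := by
  rw [← map_mul, mul_inv_cancel, map_one]

/-- `t(1) = 2`. -/
theorem tt_one : tt ρ d 1 = 2 := by
  rw [tt, inv_one, map_one, map_one, one_mul]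
  norm_num

/-- `t(gh) + d(h) t(g h⁻¹) = t(g) t(h)` as soon as `t(h)` commutes with `ρ(g⁻¹)`.
Here in the frame, with `t(h) ∈ S`. -/
theorem tt_mul (hF : Fr ρ d S) {g h : G} (hh : tt ρ d h ∈ S) :
    tt ρ d (g * h) + d h * tt ρ d (g * h⁻¹) = tt ρ d g * tt ρ d h := by
  have e1 : ρ h⁻¹ * tt ρ d h = tt ρ d h * ρ h⁻¹ := (hF.cm _ hh h⁻¹).symm
  have e2 : ρ g⁻¹ * tt ρ d h = tt ρ d h * ρ g⁻¹ := (hF.cm _ hh g⁻¹).symm
  have cd : ∀ x y, d x * ρ y = ρ y * d x := fun x y => hF.cm _ (hF.dS x) y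
  have cdd : ∀ x y, d x * d y = d y * d x := fun x y => hF.ss _ (hF.dS x) _ (hF.dS y)
  -- expand the right side
  have r : tt ρ d g * tt ρ d h = ρ g * tt ρ d h + d g * (tt ρ d h * ρ g⁻¹) := by
    conv_lhs => rw [tt, add_mul, mul_assoc, e2]
  rw [r]
  have l1 : tt ρ d (g * h) = ρ g * ρ h + d g * (d h * (ρ h⁻¹ * ρ g⁻¹)) := by
    rw [tt, mul_inv_rev, map_mul, map_mul, map_mul, mul_assoc]
  have l2 : d h * tt ρ d (g * h⁻¹)
      = ρ g * (d h * ρ h⁻¹) + d g * (ρ h * ρ g⁻¹) := by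
    rw [tt, mul_inv_rev, inv_inv, map_mul, map_mul, map_mul, mul_add, ← mul_assoc, cd h g,
      mul_assoc]
    congr 1
    have e3 : d h * (d g * d h⁻¹ * (ρ h * ρ g⁻¹)) = (d h * d h⁻¹) * (d g * (ρ h * ρ g⁻¹)) := by
      rw [cdd g h⁻¹, mul_assoc (d h⁻¹), ← mul_assoc (d h)]
    rw [e3, rho_mul_inv d h, one_mul]
  rw [l1, l2]
  have r2 : ρ g * tt ρ d h = ρ g * ρ h + ρ g * (d h * ρ h⁻¹) := by rw [tt, mul_add]
  have r3 : d g * (tt ρ d h * ρ g⁻¹)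
      = d g * (ρ h * ρ g⁻¹) + d g * (d h * (ρ h⁻¹ * ρ g⁻¹)) := by
    rw [tt, add_mul, mul_add, mul_assoc (d h)]
  rw [r2, r3]
  abel

/-- the same without inverse on the right: `t(h⁻¹) d(h) = t(h)`. -/
theorem tt_inv (h : G) : d h * tt ρ d h⁻¹ = tt ρ d h := by
  rw [tt, tt, inv_inv, mul_add, ← mul_assoc, rho_mul_inv d h, one_mul, add_comm]

theorem tt_inv' (h : G) : tt ρ d h⁻¹ = d h⁻¹ * tt ρ d h := by
  rw [← tt_inv h, ← mul_assoc, rho_inv_mul d h, one_mul]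

/-- natural powers. -/
theorem tt_pow (hF : Fr ρ d S) {h : G} (hh : tt ρ d h ∈ S) (k : ℕ) :
    tt ρ d (h ^ k) ∈ S ∧ tt ρ d (h ^ (k + 1)) ∈ S := by
  induction k with
  | zero =>
    refine ⟨?_, by simpa using hh⟩
    rw [pow_zero, tt_one]
    exact S.add_mem S.one_mem S.one_mem |> fun h => by rwa [one_add_one_eq_two] at h
  | succ k ih =>
    refine ⟨ih.2, ?_⟩
    have e := tt_mul hF (g := h ^ (k + 1)) hh
    have e2 : h ^ (k + 1) * h⁻¹ = h ^ k := by rw [pow_succ, mul_inv_cancel_right]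
    rw [e2, ← pow_succ] at e
    have e3 : tt ρ d (h ^ (k + 1 + 1))
        = tt ρ d (h ^ (k + 1)) * tt ρ d h - d h * tt ρ d (h ^ k) := by
      rw [← e]; abel
    rw [e3]
    exact S.sub_mem (S.mul_mem ih.2 hh) (S.mul_mem (hF.dS h) ih.1)

/-- **all powers of a Frobenius element.** -/
theorem tt_zpow (hF : Fr ρ d S) {h : G} (hh : tt ρ d h ∈ S) (k : ℤ) : tt ρ d (h ^ k) ∈ S := by
  obtain ⟨n, rfl | rfl⟩ := k.eq_nat_or_neg
  · rw [zpow_natCast]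
    exact (tt_pow hF hh n).1
  · rw [zpow_neg, zpow_natCast, tt_inv']
    exact S.mul_mem (hF.dS _) (tt_pow hF hh n).1

/-- **[CEN]**: the image is a 2-group, an odd power of every element is a Frobenius element
(for which `t ∈ S`): then `t(g) ∈ S` for all `g`. -/
theorem cen (hF : Fr ρ d S) (n : ℕ) (hρ : ∀ g, ρ (g ^ 2 ^ n) = 1) (hd : ∀ g, d (g ^ 2 ^ n) = 1)
    (hdens : ∀ g, ∃ (m : ℕ) (F : G), Odd m ∧ tt ρ d F ∈ S ∧ ρ F = ρ (g ^ m) ∧ d F = d (g ^ m))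
    (g : G) : tt ρ d g ∈ S := by
  obtain ⟨m, F, hm, hFS, h1, h2⟩ := hdens g
  have hc : Nat.Coprime m (2 ^ n) := (Nat.Coprime.pow_right n (Nat.coprime_two_right.2 hm))
  obtain ⟨k, hk⟩ : ∃ k : ℕ, m * k ≡ 1 [MOD 2 ^ n] := by
    rcases Nat.eq_zero_or_pos n with h0 | h0
    · exact ⟨0, by rw [h0, pow_zero]; exact Nat.modEq_one⟩
    · have h1 : 1 < 2 ^ n := Nat.one_lt_two_pow (by omega)
      obtain ⟨k, _, hk⟩ := Nat.exists_mul_mod_eq_one_of_coprime hc h1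
      exact ⟨k, by rw [Nat.ModEq, hk, Nat.mod_eq_of_lt h1]⟩
  have key : ∀ (f : G →* A), (∀ x, f (x ^ 2 ^ n) = 1) → ∀ x : G, f (x ^ (m * k)) = f x := by
    intro f hf x
    have hper : ∀ a b : ℕ, a ≡ b [MOD 2 ^ n] → f (x ^ a) = f (x ^ b) := by
      have hstep : ∀ a : ℕ, f (x ^ a) = f (x ^ (a % 2 ^ n)) := by
        intro a
        conv_lhs => rw [← Nat.div_add_mod a (2 ^ n), pow_add, map_mul, mul_comm (2 ^ n), pow_mul,
          hf, one_mul]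
      intro a b hab
      rw [hstep a, hstep b]
      rw [show a % 2 ^ n = b % 2 ^ n from hab]
    rw [hper _ _ hk, pow_one]
  have e1 : ρ (F ^ k) = ρ g := by
    rw [map_pow, h1, ← map_pow, ← pow_mul, key ρ hρ]
  have e2 : d (F ^ k) = d g := by
    rw [map_pow, h2, ← map_pow, ← pow_mul, key d hd]
  have e3 : ρ (F ^ k)⁻¹ = ρ g⁻¹ := by
    have a1 : ρ (F ^ k)⁻¹ * ρ (F ^ k) = 1 := rho_inv_mul ρ _
    have a2 : ρ g * ρ g⁻¹ = 1 := rho_mul_inv ρ _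
    calc ρ (F ^ k)⁻¹ = ρ (F ^ k)⁻¹ * (ρ g * ρ g⁻¹) := by rw [a2, mul_one]
      _ = (ρ (F ^ k)⁻¹ * ρ (F ^ k)) * ρ g⁻¹ := by rw [e1, mul_assoc]
      _ = ρ g⁻¹ := by rw [a1, one_mul]
  have e : tt ρ d (F ^ k) = tt ρ d g := by rw [tt, tt, e1, e2, e3]
  rw [← e]
  exact (tt_pow hF hFS k).1

/-- Cayley-Hamilton: `g² - t(g) g + d(g) = 0`. -/
theorem cayley (ρ d : G →* A) (g : G) :
    ρ g * ρ g - tt ρ d g * ρ g + d g = 0 := by
  have e : tt ρ d g * ρ g = ρ g * ρ g + d g := by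
    rw [tt, add_mul, mul_assoc, rho_inv_mul, mul_one]
  rw [e]
  abel

/-- the polarised form: `g h + h g = t(g) h + t(h) g + t(gh) - t(g) t(h)`. -/
theorem polar (hF : Fr ρ d S) (hS : ∀ g, tt ρ d g ∈ S) (g h : G) :
    ρ g * ρ h + ρ h * ρ g
      = tt ρ d g * ρ h + tt ρ d h * ρ g + tt ρ d (g * h) - tt ρ d g * tt ρ d h := by
  have cd : ∀ x y, d x * ρ y = ρ y * d x := fun x y => hF.cm _ (hF.dS x) y
  have e1 : d g * ρ g⁻¹ = tt ρ d g - ρ g := by rw [tt]; abel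
  have e2 : d h * ρ h⁻¹ = tt ρ d h - ρ h := by rw [tt]; abel
  have e3 : tt ρ d (g * h) = ρ g * ρ h + (tt ρ d h - ρ h) * (tt ρ d g - ρ g) := by
    rw [← e1, ← e2]
    rw [tt, mul_inv_rev, map_mul, map_mul, map_mul]
    congr 1
    have a : d h * ρ h⁻¹ * (d g * ρ g⁻¹) = d h * (ρ h⁻¹ * d g) * ρ g⁻¹ := by
      simp only [mul_assoc]
    rw [a, ← cd g h⁻¹, ← mul_assoc (d h), hF.ss _ (hF.dS h) _ (hF.dS g)]
    simp only [mul_assoc]
  have c1 : ρ h * tt ρ d g = tt ρ d g * ρ h := (hF.cm _ (hS g) h).symm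
  have c2 : tt ρ d h * tt ρ d g = tt ρ d g * tt ρ d h := hF.ss _ (hS h) _ (hS g)
  have e4 : (tt ρ d h - ρ h) * (tt ρ d g - ρ g)
      = tt ρ d g * tt ρ d h - tt ρ d h * ρ g - tt ρ d g * ρ h + ρ h * ρ g := by
    rw [sub_mul, mul_sub, mul_sub, c1, c2]
    abel
  rw [e3, e4]
  abel

/-- `t(g) = t(h g h⁻¹)`. -/
theorem tt_conj (hF : Fr ρ d S) (hS : ∀ g, tt ρ d g ∈ S) (hab : ∀ x y, d (x * y) = d (y * x))
    (g h : G) : tt ρ d (h * g * h⁻¹) = tt ρ d g := by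
  have cd : ∀ x y, d x * ρ y = ρ y * d x := fun x y => hF.cm _ (hF.dS x) y
  have e1 : d (h * g * h⁻¹) = d g := by
    rw [hab, ← mul_assoc, inv_mul_cancel, one_mul]
  have e : tt ρ d (h * g * h⁻¹) = ρ h * tt ρ d g * ρ h⁻¹ := by
    rw [tt, tt, e1, mul_add, add_mul]
    congr 1
    · rw [map_mul, map_mul]
    · have : (h * g * h⁻¹)⁻¹ = h * g⁻¹ * h⁻¹ := by group
      rw [this, map_mul, map_mul, ← mul_assoc, ← mul_assoc, ← mul_assoc, cd g h]
  rw [e, ← hF.cm _ (hS g) h, mul_assoc, rho_mul_inv, mul_one]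

/-- symmetric: `t(gh) = t(hg)`. -/
theorem tt_comm (hF : Fr ρ d S) (hS : ∀ g, tt ρ d g ∈ S) (g h : G) :
    tt ρ d (g * h) = tt ρ d (h * g) := by
  have hab : ∀ x y, d (x * y) = d (y * x) := fun x y => by
    rw [map_mul, map_mul, hF.ss _ (hF.dS x) _ (hF.dS y)]
  have e := tt_conj hF hS hab (h * g) h⁻¹
  have e2 : h⁻¹ * (h * g) * h⁻¹⁻¹ = g * h := by group
  rw [e2] at e
  exact e

/-- the frame from generators of the Hecke algebra. -/
theorem fr_closure (ρ d : G →* A) (X : Set A) (h1 : ∀ x ∈ X, ∀ g, x * ρ g = ρ g * x)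
    (h2 : ∀ x ∈ X, ∀ y ∈ X, x * y = y * x) (h3 : ∀ g, d g ∈ Subring.closure X) :
    Fr ρ d (Subring.closure X) := by
  have c1 : Subring.closure X ≤ Subring.centralizer (Set.range ρ) := by
    rw [Subring.closure_le]
    intro x hx
    rw [SetLike.mem_coe, Subring.mem_centralizer_iff]
    rintro _ ⟨g, rfl⟩
    exact (h1 x hx g).symm
  have c2 : Subring.closure X ≤ Subring.centralizer X := by
    rw [Subring.closure_le]
    intro x hx
    rw [SetLike.mem_coe, Subring.mem_centralizer_iff]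
    intro y hy
    exact h2 y hy x hx
  have c3 : Subring.closure X ≤ Subring.centralizer (Subring.closure X : Set A) := by
    rw [Subring.closure_le]
    intro x hx
    rw [SetLike.mem_coe, Subring.mem_centralizer_iff]
    intro y hy
    exact ((Subring.mem_centralizer_iff.1 (c2 hy)) x hx).symm
  refine ⟨?_, ?_, h3⟩
  · intro s hs g
    exact ((Subring.mem_centralizer_iff.1 (c1 hs)) _ ⟨g, rfl⟩).symm
  · intro s hs s' hs'
    exact ((Subring.mem_centralizer_iff.1 (c3 hs')) s hs)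

end Vale.Agent.P022.H583
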