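import Vale.Agent.P022.H583.Th

/-! Level 3: `(D + D₃)⁴ = D D₃` over `F₂`, `D_u = Σ q^(u·odd²)`. -/

namespace Vale.Agent.P022.H583

open Finset
open scoped Classical

/-- the involution on `a² + 3 b² = m`, `a, b` odd. -/
def s3 (p : ℕ × ℕ) : ℕ × ℕ :=
  if (p.1 + p.2) % 4 = 2 then (((3 * p.2 - p.1) + (p.1 - 3 * p.2)) / 2, (p.1 + p.2) / 2)
  else ((p.1 + 3 * p.2) / 2, ((p.1 - p.2) + (p.2 - p.1)) / 2)

theorem s3_cases {a b : ℕ} (ha : Odd a) (hb : Odd b) :
    ((a + b) % 4 = 2 ∧ (s3 (a, b)).2 * 2 = a + b ∧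
      ((s3 (a, b)).1 * 2 + a = 3 * b ∨ (s3 (a, b)).1 * 2 + 3 * b = a)) ∨
    ((a + b) % 4 = 0 ∧ (s3 (a, b)).1 * 2 = a + 3 * b ∧
      ((s3 (a, b)).2 * 2 + b = a ∨ (s3 (a, b)).2 * 2 + a = b)) := by
  obtain ⟨k, rfl⟩ := ha
  obtain ⟨l, rfl⟩ := hb
  unfold s3
  simp only
  split_ifs with h
  · left
    simp only
    omega
  · right
    simp only
    omega

theorem s3_odd {a b : ℕ} (ha : Odd a) (hb : Odd b) :
    Odd (s3 (a, b)).1 ∧ Odd (s3 (a, b)).2 := by
  have h := s3_cases ha hb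
  rw [Nat.odd_iff] at *
  rw [Nat.odd_iff]
  omega

theorem s3_norm {a b : ℕ} (ha : Odd a) (hb : Odd b) :
    (s3 (a, b)).1 ^ 2 + 3 * (s3 (a, b)).2 ^ 2 = a ^ 2 + 3 * b ^ 2 := by
  have h := s3_cases ha hb
  set A := (s3 (a, b)).1
  set B := (s3 (a, b)).2
  zify at h ⊢
  have h4 : (4 : ℤ) * ((A : ℤ) ^ 2 + 3 * (B : ℤ) ^ 2) = 4 * ((a : ℤ) ^ 2 + 3 * (b : ℤ) ^ 2) := by
    rcases h with ⟨-, h1, h2 | h2⟩ | ⟨-, h1, h2 | h2⟩
    · have e1 : (A : ℤ) * 2 = 3 * b - a := by linarith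
      calc (4 : ℤ) * ((A : ℤ) ^ 2 + 3 * (B : ℤ) ^ 2) = ((A : ℤ) * 2) ^ 2 + 3 * ((B : ℤ) * 2) ^ 2 := by ring
        _ = _ := by rw [e1, h1]; ring
    · have e1 : (A : ℤ) * 2 = a - 3 * b := by linarith
      calc (4 : ℤ) * ((A : ℤ) ^ 2 + 3 * (B : ℤ) ^ 2) = ((A : ℤ) * 2) ^ 2 + 3 * ((B : ℤ) * 2) ^ 2 := by ring
        _ = _ := by rw [e1, h1]; ring
    · have e1 : (B : ℤ) * 2 = a - b := by linarith
      calc (4 : ℤ) * ((A : ℤ) ^ 2 + 3 * (B : ℤ) ^ 2) = ((A : ℤ) * 2) ^ 2 + 3 * ((B : ℤ) * 2) ^ 2 := by ring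
        _ = _ := by rw [e1, h1]; ring
    · have e1 : (B : ℤ) * 2 = b - a := by linarith
      calc (4 : ℤ) * ((A : ℤ) ^ 2 + 3 * (B : ℤ) ^ 2) = ((A : ℤ) * 2) ^ 2 + 3 * ((B : ℤ) * 2) ^ 2 := by ring
        _ = _ := by rw [e1, h1]; ring
  linarith

theorem s3_inv {a b : ℕ} (ha : Odd a) (hb : Odd b) : s3 (s3 (a, b)) = (a, b) := by
  have h := s3_cases ha hb
  have ho := s3_odd ha hb
  have h' := s3_cases ho.1 ho.2
  have e : ((s3 (a, b)).1, (s3 (a, b)).2) = s3 (a, b) := rfl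
  rw [e] at h'
  rw [Nat.odd_iff] at ha hb
  refine Prod.ext ?_ ?_
  · show (s3 (s3 (a, b))).1 = a
    omega
  · show (s3 (s3 (a, b))).2 = b
    omega

theorem s3_fix {a b : ℕ} (ha : Odd a) (hb : Odd b) : s3 (a, b) = (a, b) ↔ a = b ∨ a = 3 * b := by
  have h := s3_cases ha hb
  rw [Nat.odd_iff] at ha hb
  constructor
  · intro e
    rw [e] at h
    simp only at h
    omega
  · intro e
    refine Prod.ext ?_ ?_
    · show (s3 (a, b)).1 = a
      omega
    · show (s3 (a, b)).2 = b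
      omega

/-- the number of `(a, a)` in `S u v m`, more generally of points of a curve `a ↦ (x a, y a)`. -/
theorem card_curve {u v m w : ℕ} (hu : 0 < u) (hv : 0 < v) (hw : 0 < w) (x y : ℕ)
    (hx : Odd x) (hy : Odd y) (he : u * x ^ 2 + v * y ^ 2 = w) :
    (((S u v m).filter (fun p => ∃ a, p = (x * a, y * a))).card : ZMod 2)
      = if ∃ a, Odd a ∧ m = w * a ^ 2 then 1 else 0 := by
  have key : ∀ a, u * (x * a) ^ 2 + v * (y * a) ^ 2 = w * a ^ 2 := by
    intro a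
    rw [← he]; ring
  split_ifs with h
  · obtain ⟨a, ha, hm⟩ := h
    have : (S u v m).filter (fun p => ∃ a, p = (x * a, y * a)) = {(x * a, y * a)} := by
      ext p
      rw [Finset.mem_filter, mem_S hu hv, Finset.mem_singleton]
      constructor
      · rintro ⟨⟨h1, h2, h3⟩, c, rfl⟩
        have h4 : w * c ^ 2 = w * a ^ 2 := by rw [← hm, ← key]; exact h3
        have h5 := Nat.pow_left_injective (n := 2) (by norm_num) (Nat.eq_of_mul_eq_mul_left hw h4)
        rw [h5]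
      · rintro rfl
        refine ⟨⟨hx.mul ha, hy.mul ha, ?_⟩, a, rfl⟩
        show u * (x * a) ^ 2 + v * (y * a) ^ 2 = m
        rw [key, hm]
    rw [this]
    simp
  · have : (S u v m).filter (fun p => ∃ a, p = (x * a, y * a)) = ∅ := by
      ext p
      rw [Finset.mem_filter, mem_S hu hv]
      constructor
      · rintro ⟨⟨h1, h2, h3⟩, c, rfl⟩
        refine absurd ⟨c, ?_, ?_⟩ h
        · exact (Nat.odd_mul.1 h1).2
        · rw [← key]; exact h3.symm
      · intro e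
        exact absurd e (Finset.notMem_empty _)
    rw [this]
    simp

theorem two_eq_zero : (2 : PowerSeries (ZMod 2)) = 0 := by
  have h : (2 : PowerSeries (ZMod 2)) = PowerSeries.C (R := ZMod 2) 2 := by
    rw [map_ofNat]
  rw [h, show (2 : ZMod 2) = 0 from by decide, map_zero]

/-- **level 3**, all dilates. -/
theorem level3 (u : ℕ) (hu : 0 < u) : (th u + th (3 * u)) ^ 4 = th u * th (3 * u) := by
  have h2 := two_eq_zero
  have h1 : (th u + th (3 * u)) ^ 4 = th (4 * u) + th (12 * u) := by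
    have e : (th u + th (3 * u)) ^ 4 = th u ^ 4 + th (3 * u) ^ 4 := by
      linear_combination (2 * th u ^ 3 * th (3 * u) + 3 * th u ^ 2 * th (3 * u) ^ 2
        + 2 * th u * th (3 * u) ^ 3) * h2
    rw [e, th_pow4 u hu, th_pow4 (3 * u) (by omega)]
    congr 2
    ring
  rw [h1]
  ext m
  rw [coeff_mul_th hu (by omega), map_add, coeff_th, coeff_th, card_invol (S u (3 * u) m) s3]
  · have hf : (S u (3 * u) m).filter (fun x => s3 x = x)
        = (S u (3 * u) m).filter (fun p => ∃ a, p = (1 * a, 1 * a))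
          ∪ (S u (3 * u) m).filter (fun p => ∃ a, p = (3 * a, 1 * a)) := by
      ext ⟨a, b⟩
      rw [Finset.mem_union, Finset.mem_filter, Finset.mem_filter, Finset.mem_filter]
      constructor
      · rintro ⟨hS, hs⟩
        have hS' := (mem_S hu (by omega)).1 hS
        rcases (s3_fix hS'.1 hS'.2.1).1 hs with e | e
        · left
          exact ⟨hS, b, by rw [one_mul]; exact Prod.ext e rfl⟩
        · right
          exact ⟨hS, b, by rw [one_mul]; exact Prod.ext e rfl⟩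
      · rintro (⟨hS, c, hc⟩ | ⟨hS, c, hc⟩)
        · have hS' := (mem_S hu (by omega)).1 hS
          refine ⟨hS, (s3_fix hS'.1 hS'.2.1).2 (Or.inl ?_)⟩
          rw [Prod.mk.injEq] at hc
          omega
        · have hS' := (mem_S hu (by omega)).1 hS
          refine ⟨hS, (s3_fix hS'.1 hS'.2.1).2 (Or.inr ?_)⟩
          rw [Prod.mk.injEq] at hc
          omega
    have hd : Disjoint ((S u (3 * u) m).filter (fun p => ∃ a, p = (1 * a, 1 * a)))
        ((S u (3 * u) m).filter (fun p => ∃ a, p = (3 * a, 1 * a))) := by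
      rw [Finset.disjoint_left]
      rintro ⟨a, b⟩ h1 h2
      rw [Finset.mem_filter] at h1 h2
      obtain ⟨hS, c, hc⟩ := h1
      obtain ⟨_, d, hd⟩ := h2
      have hS' := (mem_S hu (by omega)).1 hS
      have ho := hS'.1
      rw [Prod.mk.injEq] at hc hd
      simp only at ho
      rw [Nat.odd_iff] at ho
      omega
    rw [hf, Finset.card_union_of_disjoint hd, Nat.cast_add,
      card_curve hu (by omega) (w := 4 * u) (by omega) 1 1 (by decide) (by decide) (by ring),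
      card_curve hu (by omega) (w := 12 * u) (by omega) 3 1 (by decide) (by decide) (by ring)]
  · rintro ⟨a, b⟩ hx
    have hS' := (mem_S hu (by omega)).1 hx
    rw [mem_S hu (by omega)]
    refine ⟨(s3_odd hS'.1 hS'.2.1).1, (s3_odd hS'.1 hS'.2.1).2, ?_⟩
    have h := s3_norm hS'.1 hS'.2.1
    have h3 := hS'.2.2
    calc u * (s3 (a, b)).1 ^ 2 + 3 * u * (s3 (a, b)).2 ^ 2
        = u * ((s3 (a, b)).1 ^ 2 + 3 * (s3 (a, b)).2 ^ 2) := by ring
      _ = u * (a ^ 2 + 3 * b ^ 2) := by rw [h]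
      _ = u * a ^ 2 + 3 * u * b ^ 2 := by ring
      _ = m := h3
  · rintro ⟨a, b⟩ hx
    have hS' := (mem_S hu (by omega)).1 hx
    exact s3_inv hS'.1 hS'.2.1

end Vale.Agent.P022.H583
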