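import Vale.Agent.P022.H583.L3

/-! Level 5: `(D + D₅)⁶ = D D₅` over `F₂`, `D_u = Σ q^(u·odd²)`. -/

namespace Vale.Agent.P022.H583

open Finset
open scoped Classical

/-- prime to 6. -/
def P6 (a : ℕ) : Prop := Odd a ∧ ¬ 3 ∣ a

/-- `e6 u = Σ_{(a,6)=1} q^(u a²)`. -/
noncomputable def e6 (u : ℕ) : PowerSeries (ZMod 2) :=
  PowerSeries.mk fun n => if ∃ a, P6 a ∧ n = u * a ^ 2 then 1 else 0

theorem coeff_e6 (u n : ℕ) :
    PowerSeries.coeff n (e6 u) = if ∃ a, P6 a ∧ n = u * a ^ 2 then 1 else 0 := by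
  rw [e6, PowerSeries.coeff_mk]

theorem sq_inj {u a b : ℕ} (hu : 0 < u) (h : u * a ^ 2 = u * b ^ 2) : a = b :=
  Nat.pow_left_injective (n := 2) (by norm_num) (Nat.eq_of_mul_eq_mul_left hu h)

theorem e6_eq (u : ℕ) (hu : 0 < u) : e6 u = th u + th (9 * u) := by
  ext n
  rw [map_add, coeff_e6, coeff_th, coeff_th]
  by_cases h1 : ∃ a, P6 a ∧ n = u * a ^ 2
  · obtain ⟨a, ha, hn⟩ := h1
    rw [if_pos ⟨a, ha, hn⟩, if_pos ⟨a, ha.1, hn⟩, if_neg, add_zero]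
    rintro ⟨b, hb, hb'⟩
    have : u * a ^ 2 = u * (3 * b) ^ 2 := by rw [← hn, hb']; ring
    exact ha.2 ⟨b, sq_inj hu this⟩
  · rw [if_neg h1]
    by_cases h2 : ∃ a, Odd a ∧ n = u * a ^ 2
    · rw [if_pos h2]
      obtain ⟨a, ha, hn⟩ := h2
      have h3 : 3 ∣ a := by
        by_contra h3
        exact h1 ⟨a, ⟨ha, h3⟩, hn⟩
      obtain ⟨b, rfl⟩ := h3
      rw [if_pos]
      · decide
      · exact ⟨b, (Nat.odd_mul.1 ha).2, by rw [hn]; ring⟩
    · rw [if_neg h2, if_neg, add_zero]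
      rintro ⟨b, hb, hb'⟩
      exact h2 ⟨3 * b, (by decide : Odd 3).mul hb, by rw [hb']; ring⟩

/-- `e³ = D₃`. -/
theorem e6_cube (u : ℕ) (hu : 0 < u) : e6 u ^ 3 = th (3 * u) := by
  have h2 := two_eq_zero
  have hne : e6 u ≠ 0 := by
    intro h
    have h1 : PowerSeries.coeff u (e6 u) = 1 := by
      rw [coeff_e6, if_pos]
      exact ⟨1, ⟨by decide, by decide⟩, by ring⟩
    rw [h, map_zero] at h1
    exact absurd h1 (by decide)
  have h3 := level3 u hu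
  have h9 := level3 (3 * u) (by omega)
  rw [show 3 * (3 * u) = 9 * u by ring] at h9
  have e := e6_eq u hu
  have h4 : e6 u * e6 u ^ 3 = e6 u * th (3 * u) := by
    rw [e]
    have e1 : (th u + th (3 * u)) ^ 4 = th u ^ 4 + th (3 * u) ^ 4 := by
      linear_combination (2 * th u ^ 3 * th (3 * u) + 3 * th u ^ 2 * th (3 * u) ^ 2
        + 2 * th u * th (3 * u) ^ 3) * h2
    have e2 : (th (3 * u) + th (9 * u)) ^ 4 = th (3 * u) ^ 4 + th (9 * u) ^ 4 := by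
      linear_combination (2 * th (3 * u) ^ 3 * th (9 * u) + 3 * th (3 * u) ^ 2 * th (9 * u) ^ 2
        + 2 * th (3 * u) * th (9 * u) ^ 3) * h2
    have e3 : (th u + th (9 * u)) ^ 4 = th u ^ 4 + th (9 * u) ^ 4 := by
      linear_combination (2 * th u ^ 3 * th (9 * u) + 3 * th u ^ 2 * th (9 * u) ^ 2
        + 2 * th u * th (9 * u) ^ 3) * h2
    rw [e1] at h3
    rw [e2] at h9
    linear_combination e3 + h3 + h9 - (th (3 * u) ^ 4) * h2
  exact mul_left_cancel₀ hne h4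

/-- pairs prime to 6. -/
noncomputable def T6 (u v m : ℕ) : Finset (ℕ × ℕ) :=
  ((range (m + 1)) ×ˢ (range (m + 1))).filter
    (fun p => P6 p.1 ∧ P6 p.2 ∧ u * p.1 ^ 2 + v * p.2 ^ 2 = m)

theorem le_of_sq {u x m : ℕ} (hu : 0 < u) (h : u * x ^ 2 ≤ m) : x ≤ m := by
  have h1 : x ≤ x ^ 2 := Nat.le_self_pow (by norm_num) x
  have h2 : x ^ 2 ≤ u * x ^ 2 := Nat.le_mul_of_pos_left _ hu
  omega

theorem mem_T6 {u v m : ℕ} (hu : 0 < u) (hv : 0 < v) {p : ℕ × ℕ} :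
    p ∈ T6 u v m ↔ P6 p.1 ∧ P6 p.2 ∧ u * p.1 ^ 2 + v * p.2 ^ 2 = m := by
  rw [T6, Finset.mem_filter]
  constructor
  · exact fun h => h.2
  · intro h
    refine ⟨?_, h⟩
    rw [Finset.mem_product, Finset.mem_range, Finset.mem_range]
    have h1 : p.1 ≤ m := le_of_sq hu (by omega)
    have h2 : p.2 ≤ m := le_of_sq hv (by omega)
    omega

theorem coeff_mul_e6 {u v : ℕ} (hu : 0 < u) (hv : 0 < v) (m : ℕ) :
    PowerSeries.coeff m (e6 u * e6 v) = ((T6 u v m).card : ZMod 2) := by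
  rw [PowerSeries.coeff_mul]
  have h1 : ∀ p ∈ antidiagonal m,
      PowerSeries.coeff p.1 (e6 u) * PowerSeries.coeff p.2 (e6 v)
        = if ((∃ a, P6 a ∧ p.1 = u * a ^ 2) ∧ (∃ b, P6 b ∧ p.2 = v * b ^ 2))
          then (1 : ZMod 2) else 0 := by
    intro p _
    rw [coeff_e6, coeff_e6]
    by_cases h1 : ∃ a, P6 a ∧ p.1 = u * a ^ 2 <;> by_cases h2 : ∃ b, P6 b ∧ p.2 = v * b ^ 2 <;>
      simp [h1, h2]
  rw [Finset.sum_congr rfl h1, Finset.sum_boole]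
  congr 1
  symm
  refine Finset.card_bij (fun p _ => (u * p.1 ^ 2, v * p.2 ^ 2)) ?_ ?_ ?_
  · intro p hp
    rw [mem_T6 hu hv] at hp
    rw [Finset.mem_filter, Finset.HasAntidiagonal.mem_antidiagonal]
    exact ⟨hp.2.2, ⟨p.1, hp.1, rfl⟩, ⟨p.2, hp.2.1, rfl⟩⟩
  · intro p _ q _ h
    exact Prod.ext (sq_inj hu (congrArg Prod.fst h)) (sq_inj hv (congrArg Prod.snd h))
  · intro p hp
    rw [Finset.mem_filter, Finset.HasAntidiagonal.mem_antidiagonal] at hp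
    obtain ⟨hs, ⟨a, ha, h1⟩, ⟨b, hb, h2⟩⟩ := hp
    refine ⟨(a, b), ?_, ?_⟩
    · rw [mem_T6 hu hv]
      refine ⟨ha, hb, ?_⟩
      show u * a ^ 2 + v * b ^ 2 = m
      rw [← h1, ← h2]
      exact hs
    · show (u * a ^ 2, v * b ^ 2) = p
      rw [← h1, ← h2]

/-- signed pairs `u (x² + 5 y²) = m`, `x > 0`, `x ≡ y mod 3`, both odd. -/
noncomputable def U5 (u m : ℕ) : Finset (ℤ × ℤ) :=
  ((Icc (1 : ℤ) m) ×ˢ (Icc (-(m : ℤ)) m)).filter
    (fun p => p.1 % 2 = 1 ∧ p.2 % 2 = 1 ∧ 3 ∣ p.1 - p.2 ∧ (u : ℤ) * (p.1 ^ 2 + 5 * p.2 ^ 2) = m)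

theorem mem_U5 {u m : ℕ} (hu : 0 < u) {p : ℤ × ℤ} :
    p ∈ U5 u m ↔ 0 < p.1 ∧ p.1 % 2 = 1 ∧ p.2 % 2 = 1 ∧ 3 ∣ p.1 - p.2 ∧
      (u : ℤ) * (p.1 ^ 2 + 5 * p.2 ^ 2) = m := by
  rw [U5, Finset.mem_filter, Finset.mem_product, Finset.mem_Icc, Finset.mem_Icc]
  constructor
  · rintro ⟨⟨h1, h2⟩, h3⟩
    exact ⟨by omega, h3⟩
  · rintro ⟨h0, h1, h2, h3, h4⟩
    refine ⟨?_, h1, h2, h3, h4⟩
    have hu' : (1 : ℤ) ≤ u := by exact_mod_cast hu
    have h5 : p.1 ^ 2 + 5 * p.2 ^ 2 ≤ m := by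
      rw [← h4]
      nlinarith [sq_nonneg p.1, sq_nonneg p.2]
    have h6 : p.1 ≤ p.1 ^ 2 := by nlinarith
    have h7 : p.2 ≤ p.2 ^ 2 ∧ -p.2 ≤ p.2 ^ 2 := by
      constructor
      · rcases le_or_gt p.2 0 with h | h
        · nlinarith [sq_nonneg p.2]
        · nlinarith
      · rcases le_or_gt 0 p.2 with h | h
        · nlinarith [sq_nonneg p.2]
        · nlinarith
    have h8 := sq_nonneg p.1
    have h9 := sq_nonneg p.2
    omega

/-- the involution of level 5. -/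
def s5 (p : ℤ × ℤ) : ℤ × ℤ :=
  if 0 < 5 * p.2 - 2 * p.1 then ((5 * p.2 - 2 * p.1) / 3, (p.1 + 2 * p.2) / 3)
  else ((2 * p.1 - 5 * p.2) / 3, (-p.1 - 2 * p.2) / 3)

theorem s5_cases {x y : ℤ} (_h0 : 0 < x) (hx : x % 2 = 1) (hy : y % 2 = 1) (h3 : 3 ∣ x - y) :
    (0 < 5 * y - 2 * x ∧ (s5 (x, y)).1 * 3 = 5 * y - 2 * x ∧ (s5 (x, y)).2 * 3 = x + 2 * y) ∨
    (5 * y - 2 * x < 0 ∧ (s5 (x, y)).1 * 3 = 2 * x - 5 * y ∧ (s5 (x, y)).2 * 3 = -x - 2 * y) := by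
  unfold s5
  simp only
  split_ifs with h
  · left
    simp only
    omega
  · right
    simp only
    omega

theorem s5_spec {x y : ℤ} (h0 : 0 < x) (hx : x % 2 = 1) (hy : y % 2 = 1) (h3 : 3 ∣ x - y) :
    0 < (s5 (x, y)).1 ∧ (s5 (x, y)).1 % 2 = 1 ∧ (s5 (x, y)).2 % 2 = 1 ∧
      3 ∣ (s5 (x, y)).1 - (s5 (x, y)).2 := by
  have h := s5_cases h0 hx hy h3
  omega

theorem s5_norm {x y : ℤ} (h0 : 0 < x) (hx : x % 2 = 1) (hy : y % 2 = 1) (h3 : 3 ∣ x - y) :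
    (s5 (x, y)).1 ^ 2 + 5 * (s5 (x, y)).2 ^ 2 = x ^ 2 + 5 * y ^ 2 := by
  have h := s5_cases h0 hx hy h3
  set A := (s5 (x, y)).1
  set B := (s5 (x, y)).2
  have h9 : 9 * (A ^ 2 + 5 * B ^ 2) = 9 * (x ^ 2 + 5 * y ^ 2) := by
    rcases h with ⟨-, h1, h2⟩ | ⟨-, h1, h2⟩
    · calc 9 * (A ^ 2 + 5 * B ^ 2) = (A * 3) ^ 2 + 5 * (B * 3) ^ 2 := by ring
        _ = _ := by rw [h1, h2]; ring
    · calc 9 * (A ^ 2 + 5 * B ^ 2) = (A * 3) ^ 2 + 5 * (B * 3) ^ 2 := by ring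
        _ = _ := by rw [h1, h2]; ring
  linarith

theorem s5_inv {x y : ℤ} (h0 : 0 < x) (hx : x % 2 = 1) (hy : y % 2 = 1) (h3 : 3 ∣ x - y) :
    s5 (s5 (x, y)) = (x, y) := by
  have h := s5_cases h0 hx hy h3
  obtain ⟨k0, k1, k2, k3⟩ := s5_spec h0 hx hy h3
  have h' := s5_cases k0 k1 k2 k3
  have e : ((s5 (x, y)).1, (s5 (x, y)).2) = s5 (x, y) := rfl
  rw [e] at h'
  refine Prod.ext ?_ ?_
  · show (s5 (s5 (x, y))).1 = x
    omega
  · show (s5 (s5 (x, y))).2 = y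
    omega

theorem s5_fix {x y : ℤ} (h0 : 0 < x) (hx : x % 2 = 1) (hy : y % 2 = 1) (h3 : 3 ∣ x - y) :
    s5 (x, y) = (x, y) ↔ x = y ∨ x = -5 * y := by
  have h := s5_cases h0 hx hy h3
  constructor
  · intro e
    rw [e] at h
    simp only at h
    omega
  · intro e
    refine Prod.ext ?_ ?_
    · show (s5 (x, y)).1 = x
      omega
    · show (s5 (x, y)).2 = y
      omega

/-- number of points `(c a, d a)`, `a > 0`, of `U5`. -/
theorem card_curve5 {u m w : ℕ} (hu : 0 < u) (hw : 0 < w) (c d : ℤ) (hc0 : 0 < c)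
    (hc : c % 2 = 1) (hd : d % 2 = 1) (h3 : 3 ∣ c - d)
    (he : (u : ℤ) * (c ^ 2 + 5 * d ^ 2) = w) :
    (((U5 u m).filter (fun p => ∃ a : ℕ, p = (c * a, d * a))).card : ZMod 2)
      = if ∃ a, Odd a ∧ m = w * a ^ 2 then 1 else 0 := by
  have key : ∀ a : ℕ, (u : ℤ) * ((c * a) ^ 2 + 5 * (d * a) ^ 2) = ((w * a ^ 2 : ℕ) : ℤ) := by
    intro a
    push_cast
    rw [← he]; ring
  split_ifs with h
  · obtain ⟨a, ha, hm⟩ := h
    have ha0 : 0 < a := ha.pos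
    have : (U5 u m).filter (fun p => ∃ a : ℕ, p = (c * a, d * a)) = {(c * a, d * a)} := by
      ext p
      rw [Finset.mem_filter, mem_U5 hu, Finset.mem_singleton]
      constructor
      · rintro ⟨⟨_, _, _, _, h4⟩, b, rfl⟩
        have h5 : ((w * b ^ 2 : ℕ) : ℤ) = ((w * a ^ 2 : ℕ) : ℤ) := by
          rw [← hm, ← key]; exact h4
        have h6 : b = a := sq_inj hw (by exact_mod_cast h5)
        rw [h6]
      · rintro rfl
        obtain ⟨k, hk⟩ := ha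
        obtain ⟨t, ht⟩ := h3
        refine ⟨⟨?_, ?_, ?_, ?_, ?_⟩, a, rfl⟩
        · show 0 < c * (a : ℤ)
          have : (0 : ℤ) < a := by exact_mod_cast ha0
          positivity
        · show (c * (a : ℤ)) % 2 = 1
          rw [Int.mul_emod, hc, hk]
          push_cast
          omega
        · show (d * (a : ℤ)) % 2 = 1
          rw [Int.mul_emod, hd, hk]
          push_cast
          omega
        · show 3 ∣ c * (a : ℤ) - d * a
          exact ⟨t * a, by rw [← sub_mul, ht]; ring⟩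
        · show (u : ℤ) * ((c * a) ^ 2 + 5 * (d * a) ^ 2) = m
          rw [key, hm]
    rw [this]
    simp
  · have : (U5 u m).filter (fun p => ∃ a : ℕ, p = (c * a, d * a)) = ∅ := by
      ext p
      rw [Finset.mem_filter, mem_U5 hu]
      constructor
      · rintro ⟨⟨_, h1, _, _, h4⟩, a, rfl⟩
        refine absurd ⟨a, ?_, ?_⟩ h
        · have h1' : (c * (a : ℤ)) % 2 = 1 := h1
          rw [Int.mul_emod, hc] at h1'
          rw [Nat.odd_iff]
          omega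
        · have h5 : ((w * a ^ 2 : ℕ) : ℤ) = m := by rw [← key]; exact h4
          exact_mod_cast h5.symm
      · intro e
        exact absurd e (Finset.notMem_empty _)
    rw [this]
    simp

theorem card_U5 (u m : ℕ) (hu : 0 < u) :
    ((U5 u m).card : ZMod 2)
      = (if ∃ a, Odd a ∧ m = (6 * u) * a ^ 2 then 1 else 0)
        + (if ∃ a, Odd a ∧ m = (30 * u) * a ^ 2 then 1 else 0) := by
  rw [card_invol (U5 u m) s5]
  · have hf : (U5 u m).filter (fun x => s5 x = x)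
        = (U5 u m).filter (fun p : ℤ × ℤ => ∃ a : ℕ, p = (1 * (a : ℤ), 1 * (a : ℤ)))
          ∪ (U5 u m).filter (fun p : ℤ × ℤ => ∃ a : ℕ, p = (5 * (a : ℤ), (-1) * (a : ℤ))) := by
      ext ⟨x, y⟩
      rw [Finset.mem_union, Finset.mem_filter, Finset.mem_filter, Finset.mem_filter]
      constructor
      · rintro ⟨hS, hs⟩
        obtain ⟨h0, h1, h2, h3, h4⟩ := (mem_U5 hu).1 hS
        simp only at h0 h1 h2 h3
        rcases (s5_fix h0 h1 h2 h3).1 hs with e | e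
        · left
          refine ⟨hS, x.toNat, ?_⟩
          rw [Prod.mk.injEq]
          omega
        · right
          refine ⟨hS, (-y).toNat, ?_⟩
          rw [Prod.mk.injEq]
          omega
      · rintro (⟨hS, c, hc⟩ | ⟨hS, c, hc⟩)
        · obtain ⟨h0, h1, h2, h3, h4⟩ := (mem_U5 hu).1 hS
          simp only at h0 h1 h2 h3
          refine ⟨hS, (s5_fix h0 h1 h2 h3).2 (Or.inl ?_)⟩
          rw [Prod.mk.injEq] at hc
          omega
        · obtain ⟨h0, h1, h2, h3, h4⟩ := (mem_U5 hu).1 hS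
          simp only at h0 h1 h2 h3
          refine ⟨hS, (s5_fix h0 h1 h2 h3).2 (Or.inr ?_)⟩
          rw [Prod.mk.injEq] at hc
          omega
    have hd : Disjoint ((U5 u m).filter (fun p : ℤ × ℤ => ∃ a : ℕ, p = (1 * (a : ℤ), 1 * (a : ℤ))))
        ((U5 u m).filter (fun p : ℤ × ℤ => ∃ a : ℕ, p = (5 * (a : ℤ), (-1) * (a : ℤ)))) := by
      rw [Finset.disjoint_left]
      rintro ⟨x, y⟩ h1 h2
      rw [Finset.mem_filter] at h1 h2
      obtain ⟨hS, c, hc⟩ := h1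
      obtain ⟨_, d, hd⟩ := h2
      obtain ⟨h0, h1, h2, h3, h4⟩ := (mem_U5 hu).1 hS
      simp only at h0 h1 h2 h3
      rw [Prod.mk.injEq] at hc hd
      omega
    rw [hf, Finset.card_union_of_disjoint hd, Nat.cast_add,
      card_curve5 hu (w := 6 * u) (by omega) 1 1 (by norm_num) (by norm_num) (by norm_num)
        (by norm_num) (by push_cast; ring),
      card_curve5 hu (w := 30 * u) (by omega) 5 (-1) (by norm_num) (by norm_num) (by norm_num)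
        (by norm_num) (by push_cast; ring)]
  · rintro ⟨x, y⟩ hx
    obtain ⟨h0, h1, h2, h3, h4⟩ := (mem_U5 hu).1 hx
    simp only at h0 h1 h2 h3 h4
    rw [mem_U5 hu]
    obtain ⟨k0, k1, k2, k3⟩ := s5_spec h0 h1 h2 h3
    refine ⟨k0, k1, k2, k3, ?_⟩
    rw [s5_norm h0 h1 h2 h3]
    exact h4
  · rintro ⟨x, y⟩ hx
    obtain ⟨h0, h1, h2, h3, h4⟩ := (mem_U5 hu).1 hx
    exact s5_inv h0 h1 h2 h3

theorem card_T6 (u m : ℕ) (hu : 0 < u) :
    ((T6 u (5 * u) m).card : ZMod 2) = ((U5 u m).card : ZMod 2) := by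
  have hv : 0 < 5 * u := by omega
  rw [← Finset.card_filter_add_card_filter_not (s := U5 u m) (fun p => 3 ∣ p.1), Nat.cast_add]
  have h0 : (((U5 u m).filter (fun p => 3 ∣ p.1)).card : ZMod 2) = 0 := by
    rw [card_invol ((U5 u m).filter (fun p => 3 ∣ p.1)) (fun p => (p.1, -p.2))]
    · have : (((U5 u m).filter (fun p => 3 ∣ p.1)).filter (fun x => (x.1, -x.2) = x)) = ∅ := by
        ext ⟨x, y⟩
        rw [Finset.mem_filter, Finset.mem_filter, mem_U5 hu]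
        constructor
        · rintro ⟨⟨⟨_, _, h2, _, _⟩, _⟩, e⟩
          have e' : -y = y := congrArg Prod.snd e
          simp only at h2
          omega
        · intro e
          exact absurd e (Finset.notMem_empty _)
      rw [this]
      simp
    · rintro ⟨x, y⟩ hx
      rw [Finset.mem_filter, mem_U5 hu] at hx ⊢
      obtain ⟨⟨h1, h2, h3, h4, h5⟩, h6⟩ := hx
      simp only at h1 h2 h3 h4 h5 h6 ⊢
      refine ⟨⟨h1, h2, by omega, by omega, ?_⟩, h6⟩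
      rw [← h5]; ring
    · rintro ⟨x, y⟩ _
      simp
  rw [h0, zero_add]
  congr 1
  symm
  refine Finset.card_bij (fun p _ => (p.1.natAbs, p.2.natAbs)) ?_ ?_ ?_
  · rintro ⟨x, y⟩ hx
    rw [Finset.mem_filter, mem_U5 hu] at hx
    obtain ⟨⟨h1, h2, h3, h4, h5⟩, h6⟩ := hx
    simp only at h1 h2 h3 h4 h5 h6
    rw [mem_T6 hu hv]
    simp only
    refine ⟨⟨?_, ?_⟩, ⟨?_, ?_⟩, ?_⟩
    · rw [Nat.odd_iff]; omega
    · omega
    · rw [Nat.odd_iff]; omega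
    · omega
    · zify
      rw [sq_abs, sq_abs, ← h5]
      ring
  · rintro ⟨x, y⟩ hx ⟨x', y'⟩ hx' e
    rw [Finset.mem_filter, mem_U5 hu] at hx hx'
    obtain ⟨⟨h1, h2, h3, h4, h5⟩, h6⟩ := hx
    obtain ⟨⟨g1, g2, g3, g4, g5⟩, g6⟩ := hx'
    simp only at h1 h2 h3 h4 h5 h6 g1 g2 g3 g4 g5 g6
    rw [Prod.mk.injEq] at e ⊢
    simp only at e
    omega
  · rintro ⟨a, b⟩ hp
    rw [mem_T6 hu hv] at hp
    obtain ⟨⟨h1, h2⟩, ⟨h3, h4⟩, h5⟩ := hp
    simp only at h1 h2 h3 h4 h5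
    rw [Nat.odd_iff] at h1 h3
    zify at h5
    by_cases h : 3 ∣ ((a : ℤ) - b)
    · refine ⟨((a : ℤ), (b : ℤ)), ?_, ?_⟩
      · rw [Finset.mem_filter, mem_U5 hu]
        simp only
        refine ⟨⟨by omega, by omega, by omega, h, ?_⟩, by omega⟩
        rw [← h5]; ring
      · simp
    · refine ⟨((a : ℤ), -(b : ℤ)), ?_, ?_⟩
      · rw [Finset.mem_filter, mem_U5 hu]
        simp only
        have h7 : (3 : ℤ) ∣ (a : ℤ) - -(b : ℤ) := by
          rcases (by omega : (a : ℤ) % 3 = 1 ∨ (a : ℤ) % 3 = 2) with i | i <;>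
            rcases (by omega : (b : ℤ) % 3 = 1 ∨ (b : ℤ) % 3 = 2) with j | j <;> omega
        refine ⟨⟨by omega, by omega, by omega, h7, ?_⟩, by omega⟩
        rw [← h5]; ring
      · simp

/-- `e e₅ = D₆ + D₃₀`. -/
theorem e6_mul (u : ℕ) (hu : 0 < u) : e6 u * e6 (5 * u) = th (6 * u) + th (30 * u) := by
  ext m
  rw [coeff_mul_e6 hu (by omega), card_T6 u m hu, card_U5 u m hu, map_add, coeff_th, coeff_th]

/-- level 5 at `q³`. -/
theorem level5_three (u : ℕ) (hu : 0 < u) :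
    (th (3 * u) + th (15 * u)) ^ 6 = th (3 * u) * th (15 * u) := by
  have h2 := two_eq_zero
  have h1 := e6_mul u hu
  have h3 := e6_cube u hu
  have h4 := e6_cube (5 * u) (by omega)
  rw [show 3 * (5 * u) = 15 * u by ring] at h4
  have h5 := th_sq (3 * u) (by omega)
  have h6 := th_sq (15 * u) (by omega)
  rw [show 2 * (3 * u) = 6 * u by ring] at h5
  rw [show 2 * (15 * u) = 30 * u by ring] at h6
  have e : (th (3 * u) + th (15 * u)) ^ 2 = th (6 * u) + th (30 * u) := by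
    rw [← h5, ← h6]
    linear_combination (th (3 * u) * th (15 * u)) * h2
  calc (th (3 * u) + th (15 * u)) ^ 6 = ((th (3 * u) + th (15 * u)) ^ 2) ^ 3 := by ring
    _ = (e6 u * e6 (5 * u)) ^ 3 := by rw [e, h1]
    _ = e6 u ^ 3 * e6 (5 * u) ^ 3 := by ring
    _ = _ := by rw [h3, h4]

theorem th_expand (k u : ℕ) (hk : k ≠ 0) : th (k * u) = PowerSeries.expand k hk (th u) := by
  ext n
  rw [PowerSeries.coeff_expand, coeff_th]
  split_ifs with h1 h2 h2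
  · rw [coeff_th, if_pos]
    obtain ⟨a, ha, hn⟩ := h1
    refine ⟨a, ha, ?_⟩
    rw [hn, mul_assoc, Nat.mul_div_cancel_left _ (Nat.pos_of_ne_zero hk)]
  · obtain ⟨a, ha, hn⟩ := h1
    exact absurd ⟨u * a ^ 2, by rw [hn]; ring⟩ h2
  · rw [coeff_th, if_neg]
    rintro ⟨a, ha, hn⟩
    refine h1 ⟨a, ha, ?_⟩
    rw [mul_assoc, ← hn, Nat.mul_div_cancel' h2]
  · rfl

theorem expand_inj (k : ℕ) (hk : k ≠ 0) (f g : PowerSeries (ZMod 2))
    (h : PowerSeries.expand k hk f = PowerSeries.expand k hk g) : f = g := by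
  ext n
  have := congrArg (PowerSeries.coeff (k * n)) h
  rwa [PowerSeries.coeff_expand_mul, PowerSeries.coeff_expand_mul] at this

/-- **level 5**, all dilates. -/
theorem level5 (u : ℕ) (hu : 0 < u) : (th u + th (5 * u)) ^ 6 = th u * th (5 * u) := by
  apply expand_inj 3 (by norm_num)
  have h := level5_three u hu
  rw [map_pow, map_add, map_mul, ← th_expand, ← th_expand, show 3 * (5 * u) = 15 * u by ring]
  exact h

end Vale.Agent.P022.H583
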