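import Mathlib

/-! Modular equations of level 3 and 5 for the theta series `Σ q^(odd²)` over `F₂`
(two explicit involutions, no modular forms). -/

namespace Vale.Agent.P022.H583

open Finset
open scoped Classical

/-- `th u = Σ_{a > 0 odd} q^(u a²)` over `F₂`. -/
noncomputable def th (u : ℕ) : PowerSeries (ZMod 2) :=
  PowerSeries.mk fun n => if ∃ a, Odd a ∧ n = u * a ^ 2 then 1 else 0

theorem coeff_th (u n : ℕ) :
    PowerSeries.coeff n (th u) = if ∃ a, Odd a ∧ n = u * a ^ 2 then 1 else 0 := by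
  rw [th, PowerSeries.coeff_mk]

/-- parity of a finite set with an involution. -/
theorem card_invol {α : Type*} [DecidableEq α] (s : Finset α) (σ : α → α)
    (hm : ∀ x ∈ s, σ x ∈ s) (hi : ∀ x ∈ s, σ (σ x) = x) :
    (s.card : ZMod 2) = ((s.filter (fun x => σ x = x)).card : ZMod 2) := by
  have h := Finset.card_filter_add_card_filter_not (s := s) (fun x => σ x = x)
  rw [← h, Nat.cast_add]
  have h0 : ((s.filter (fun x => ¬ σ x = x)).card : ZMod 2) = 0 := by
    rw [Finset.card_eq_sum_ones, Nat.cast_sum]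
    refine Finset.sum_involution (fun x _ => σ x) ?_ ?_ ?_ ?_
    · intro x hx
      decide
    · intro x hx _
      exact (Finset.mem_filter.1 hx).2
    · intro x hx
      have hx' := Finset.mem_filter.1 hx
      refine Finset.mem_filter.2 ⟨hm x hx'.1, ?_⟩
      rw [hi x hx'.1]
      exact fun e => hx'.2 e.symm
    · intro x hx
      exact hi x (Finset.mem_filter.1 hx).1
  rw [h0, add_zero]

/-- the representations `u a² + v b² = m`, `a, b > 0` odd. -/
def S (u v m : ℕ) : Finset (ℕ × ℕ) :=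
  ((range (m + 1)) ×ˢ (range (m + 1))).filter
    (fun p => Odd p.1 ∧ Odd p.2 ∧ u * p.1 ^ 2 + v * p.2 ^ 2 = m)

theorem mem_S {u v m : ℕ} (hu : 0 < u) (hv : 0 < v) {p : ℕ × ℕ} :
    p ∈ S u v m ↔ Odd p.1 ∧ Odd p.2 ∧ u * p.1 ^ 2 + v * p.2 ^ 2 = m := by
  rw [S, Finset.mem_filter]
  constructor
  · exact fun h => h.2
  · intro h
    refine ⟨?_, h⟩
    rw [Finset.mem_product, Finset.mem_range, Finset.mem_range]
    have h1 : p.1 ≤ u * p.1 ^ 2 := by nlinarith [Nat.zero_le p.1, sq_nonneg (p.1 : ℤ), Nat.le_mul_self p.1, Nat.mul_le_mul hu (le_refl (p.1 ^ 2))]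
    have h2 : p.2 ≤ v * p.2 ^ 2 := by nlinarith [Nat.zero_le p.2, Nat.le_mul_self p.2, Nat.mul_le_mul hv (le_refl (p.2 ^ 2))]
    omega

theorem coeff_mul_th {u v : ℕ} (hu : 0 < u) (hv : 0 < v) (m : ℕ) :
    PowerSeries.coeff m (th u * th v) = ((S u v m).card : ZMod 2) := by
  rw [PowerSeries.coeff_mul]
  have h1 : ∀ p ∈ antidiagonal m,
      PowerSeries.coeff p.1 (th u) * PowerSeries.coeff p.2 (th v)
        = if ((∃ a, Odd a ∧ p.1 = u * a ^ 2) ∧ (∃ b, Odd b ∧ p.2 = v * b ^ 2))
          then (1 : ZMod 2) else 0 := by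
    intro p _
    rw [coeff_th, coeff_th]
    by_cases h1 : ∃ a, Odd a ∧ p.1 = u * a ^ 2 <;> by_cases h2 : ∃ b, Odd b ∧ p.2 = v * b ^ 2 <;>
      simp [h1, h2]
  rw [Finset.sum_congr rfl h1, Finset.sum_boole]
  congr 1
  symm
  refine Finset.card_bij (fun p _ => (u * p.1 ^ 2, v * p.2 ^ 2)) ?_ ?_ ?_
  · intro p hp
    rw [mem_S hu hv] at hp
    rw [Finset.mem_filter, Finset.HasAntidiagonal.mem_antidiagonal]
    exact ⟨hp.2.2, ⟨p.1, hp.1, rfl⟩, ⟨p.2, hp.2.1, rfl⟩⟩
  · intro p _ q _ h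
    have e1 : u * p.1 ^ 2 = u * q.1 ^ 2 := congrArg Prod.fst h
    have e2 : v * p.2 ^ 2 = v * q.2 ^ 2 := congrArg Prod.snd h
    have e3 := Nat.eq_of_mul_eq_mul_left hu e1
    have e4 := Nat.eq_of_mul_eq_mul_left hv e2
    exact Prod.ext (Nat.pow_left_injective (n := 2) (by norm_num) e3)
      (Nat.pow_left_injective (n := 2) (by norm_num) e4)
  · intro p hp
    rw [Finset.mem_filter, Finset.HasAntidiagonal.mem_antidiagonal] at hp
    obtain ⟨hs, ⟨a, ha, h1⟩, ⟨b, hb, h2⟩⟩ := hp
    refine ⟨(a, b), ?_, ?_⟩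
    · rw [mem_S hu hv]
      refine ⟨ha, hb, ?_⟩
      show u * a ^ 2 + v * b ^ 2 = m
      rw [← h1, ← h2]
      exact hs
    · show (u * a ^ 2, v * b ^ 2) = p
      rw [← h1, ← h2]

/-- squares over `F₂`. -/
theorem th_sq (u : ℕ) (hu : 0 < u) : th u ^ 2 = th (2 * u) := by
  rw [pow_two]
  ext m
  rw [coeff_mul_th hu hu, coeff_th, card_invol (S u u m) Prod.swap]
  · have h : (S u u m).filter (fun x => Prod.swap x = x)
        = if h : ∃ a, Odd a ∧ m = 2 * u * a ^ 2 then {(h.choose, h.choose)} else ∅ := by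
      ext ⟨a, b⟩
      rw [Finset.mem_filter, mem_S hu hu]
      split_ifs with h
      · have h1 := h.choose_spec.1
        have h2 := h.choose_spec.2
        set c := h.choose
        rw [Finset.mem_singleton]
        constructor
        · rintro ⟨⟨ha, hb, e⟩, hs⟩
          have hs' : b = a := congrArg Prod.fst hs
          subst hs'
          simp only at ha hb e
          have e3 : u * b ^ 2 = u * c ^ 2 := by nlinarith
          have e4 := Nat.pow_left_injective (n := 2) (by norm_num) (Nat.eq_of_mul_eq_mul_left hu e3)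
          rw [e4]
        · intro e
          have e1 : a = c := congrArg Prod.fst e
          have e2 : b = c := congrArg Prod.snd e
          rw [e1, e2]
          refine ⟨⟨h1, h1, ?_⟩, rfl⟩
          show u * c ^ 2 + u * c ^ 2 = m
          rw [h2]; ring
      · constructor
        · rintro ⟨⟨ha, hb, e⟩, hs⟩
          have hs' : b = a := congrArg Prod.fst hs
          subst hs'
          exact absurd ⟨b, hb, by simp only at e; rw [← e]; ring⟩ h
        · intro e
          exact absurd e (Finset.notMem_empty _)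
    rw [h]
    split_ifs with h
    · simp
    · simp
  · rintro ⟨a, b⟩ hx
    rw [mem_S hu hu] at hx ⊢
    refine ⟨hx.2.1, hx.1, ?_⟩
    have := hx.2.2
    simp only [Prod.swap] at *
    omega
  · rintro ⟨a, b⟩ _
    rfl

theorem th_pow4 (u : ℕ) (hu : 0 < u) : th u ^ 4 = th (4 * u) := by
  have h : th u ^ 4 = (th u ^ 2) ^ 2 := by ring
  rw [h, th_sq u hu, th_sq (2 * u) (by omega)]
  congr 1
  ring

end Vale.Agent.P022.H583
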